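import Vale.Agent.P072.Existence

/-!
# The permanence conjecture for weakly reversible mass-action systems

For every weakly reversible network, every choice of positive rate constants and every positive
stoichiometric class, solutions exist for all time, stay positive and eventually enter one
compact subset of the class. The same absorbing-set statement holds for time-dependent rates with
values in a fixed window `[ε, ε⁻¹]`.
-/

open Set Filter Topology
open Vale.Agent.P072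

namespace Vale.Agent.Results.P072.Permanence

theorem result :
    ∀ (d : ℕ) (R : Finset ((Fin d → ℕ) × (Fin d → ℕ))), WeaklyReversible R →
    ∀ c : Fin d → ℝ, (∀ i, 0 < c i) →
      (∀ k : ((Fin d → ℕ) × (Fin d → ℕ)) → ℝ, (∀ r ∈ R, 0 < k r) →
        (∀ x0 ∈ posClass R c, ∃ x : ℝ → Fin d → ℝ, x 0 = x0 ∧
            (∀ t ∈ Ici (0 : ℝ), HasDerivWithinAt x (massAction R k (x t)) (Ici 0) t) ∧
            (∀ t, 0 ≤ t → x t ∈ posClass R c) ∧
            ∀ (b : ℝ) (y : ℝ → Fin d → ℝ), y 0 = x0 →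
              (∀ t ∈ Ico 0 b, HasDerivWithinAt y (massAction R k (y t)) (Ico 0 b) t) →
              ∀ t ∈ Ico 0 b, y t = x t) ∧
        ∃ K : Set (Fin d → ℝ), IsCompact K ∧ K ⊆ posClass R c ∧
          ∀ x : ℝ → Fin d → ℝ, x 0 ∈ posClass R c →
            (∀ t ∈ Ici (0 : ℝ), HasDerivWithinAt x (massAction R k (x t)) (Ici 0) t) →
            ∀ᶠ t in atTop, x t ∈ K) ∧
      ∀ ε : ℝ, 0 < ε →
        ∃ K : Set (Fin d → ℝ), IsCompact K ∧ K ⊆ posClass R c ∧
          ∀ κ : ℝ → ((Fin d → ℕ) × (Fin d → ℕ)) → ℝ,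
            (∀ t, 0 ≤ t → ∀ r ∈ R, ε ≤ κ t r ∧ κ t r ≤ ε⁻¹) →
            ∀ x : ℝ → Fin d → ℝ, x 0 ∈ posClass R c →
              (∀ t ∈ Ici (0 : ℝ), HasDerivWithinAt x (massAction R (κ t) (x t)) (Ici 0) t) →
              (∀ t, 0 ≤ t → x t ∈ posClass R c) ∧ ∀ᶠ t in atTop, x t ∈ K := by
  intro d R hR c hc
  refine ⟨fun k hk => ?_, fun ε hε => ?_⟩
  · obtain ⟨lo, hlo, hi, hrates⟩ :
        ∃ lo, 0 < lo ∧ ∃ hi, Rates R lo hi k := by
      have h0 : 0 ≤ ∑ r ∈ R, (k r)⁻¹ :=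
        Finset.sum_nonneg fun r hr => (inv_pos.2 (hk r hr)).le
      refine ⟨((∑ r ∈ R, (k r)⁻¹) + 1)⁻¹, by positivity, ∑ r ∈ R, k r, fun r hr => ⟨?_, ?_⟩⟩
      · refine inv_le_of_inv_le₀ (hk r hr) ?_
        have := Finset.single_le_sum (f := fun r => (k r)⁻¹)
          (fun r hr => (inv_pos.2 (hk r hr)).le) hr
        linarith
      · exact Finset.single_le_sum (f := k) (fun r hr => (hk r hr).le) hr
    refine ⟨fun x0 hx0 => exists_unique_solution hR k hlo hrates hc hx0, ?_⟩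
    obtain ⟨K, hKc, hKP, hK⟩ := permanence hR hlo hi hc
    exact ⟨K, hKc, hKP, fun x hx hd => (hK x hx fun t ht => ⟨k, hrates, hd t ht⟩).2⟩
  · obtain ⟨K, hKc, hKP, hK⟩ := permanence hR hε ε⁻¹ hc
    exact ⟨K, hKc, hKP, fun κ hκ x hx hd =>
      hK x hx fun t ht => ⟨κ t, hκ t ht, hd t ht⟩⟩

end Vale.Agent.Results.P072.Permanence
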